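import Vale.Agent.P204.MapMain

/-!
Donaldson's tamed-to-compatible question on the mapping tori `X_A = ℝ^4 / Γ_A`, `A ∈ SL(3, ℤ)`
(the orientable three-torus bundles over the circle), for almost complex structures that are
invariant under the translations along the fibres.
-/

namespace Vale.Agent.Results.P204.MappingTorusT3

open Vale.Agent.P204

/-- If a smooth almost complex structure on `X_A` whose lift depends only on the base coordinate
`x 0` is tamed by some symplectic form on `X_A`, then it is compatible with some symplectic form
on `X_A`. -/
theorem result (A : Matrix (Fin 3) (Fin 3) ℤ) (hA : A.det = 1)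
    (J : R4 → (R4 →L[ℝ] R4)) (hJ : IsAlmostComplexOn A J)
    (hJinv : ∀ x y : R4, x 0 = y 0 → J x = J y)
    (htamed : ∃ ω, IsClosedFormOn A ω ∧ Tames ω J) :
    ∃ ω', IsClosedFormOn A ω' ∧ Tames ω' J ∧ IsInvariant ω' J :=
  map_main A hA J hJ hJinv htamed

end Vale.Agent.Results.P204.MappingTorusT3
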