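import Vale.Agent.P204.MapMainInv

/-!
Donaldson's tamed-to-compatible question on the mapping tori `X_A = ℝ^4 / Γ_A`, `A ∈ SL(3, ℤ)`
(the orientable three-torus bundles over the circle; `A = 1` gives the four-torus), for almost
complex structures that are invariant under the translations along the fibres: equivalence form.
-/

namespace Vale.Agent.Results.P204.TamedIffCompatible

open Vale.Agent.P204

/-- Let `J` be a smooth almost complex structure on `X_A` whose lift depends only on the base
coordinate `x 0`. Then `J` is tamed by some symplectic form on `X_A` (an arbitrary closed taming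
form, not assumed invariant) if and only if `J` is compatible with some symplectic form on `X_A`;
moreover the compatible form can be chosen invariant under the translations along the fibres. -/
theorem result (A : Matrix (Fin 3) (Fin 3) ℤ) (hA : A.det = 1)
    (J : R4 → (R4 →L[ℝ] R4)) (hJ : IsAlmostComplexOn A J)
    (hJinv : ∀ x y : R4, x 0 = y 0 → J x = J y) :
    (∃ ω, IsClosedFormOn A ω ∧ Tames ω J) ↔
      ∃ ω', IsClosedFormOn A ω' ∧ Tames ω' J ∧ IsInvariant ω' J ∧
        ∀ x y : R4, x 0 = y 0 → ω' x = ω' y :=
  ⟨fun h => map_main_inv A hA J hJ hJinv h, fun ⟨ω', h1, h2, _, _⟩ => ⟨ω', h1, h2⟩⟩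

end Vale.Agent.Results.P204.TamedIffCompatible
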