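import Vale.Agent.P204.TorusMain

/-!
Donaldson's tamed-to-compatible question on the four-torus `T^4 = ℝ^4 / ℤ^4`, for almost complex
structures that are invariant under the translations of a three-dimensional subtorus.

Tensor fields on `T^4` are modelled as `ℤ^4`-periodic smooth tensor fields on `ℝ^4 = Fin 4 → ℝ`;
two-forms are maps into continuous alternating maps and closedness is `extDeriv = 0`.
-/

namespace Vale.Agent.Results.P204.TorusT3Invariant

/-- The universal cover `ℝ^4` of the four-torus. -/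
abbrev R4 : Type := Fin 4 → ℝ

/-- A field on `ℝ^4` is `ℤ^4`-periodic, i.e. descends to `T^4 = ℝ^4 / ℤ^4`. -/
def Periodic {α : Type} (F : R4 → α) : Prop :=
  ∀ (x : R4) (k : Fin 4 → ℤ), F (x + fun i => (k i : ℝ)) = F x

/-- A smooth almost complex structure on `T^4`. -/
def IsAlmostComplex (J : R4 → (R4 →L[ℝ] R4)) : Prop :=
  ContDiff ℝ (⊤ : ℕ∞) J ∧ Periodic J ∧ ∀ x v, J x (J x v) = -v

/-- A smooth closed two-form on `T^4`. -/
def IsClosedForm (ω : R4 → R4 [⋀^Fin 2]→L[ℝ] ℝ) : Prop :=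
  ContDiff ℝ (⊤ : ℕ∞) ω ∧ Periodic ω ∧ ∀ x, extDeriv ω x = 0

/-- The two-form `ω` tames `J`. -/
def Tames (ω : R4 → R4 [⋀^Fin 2]→L[ℝ] ℝ) (J : R4 → (R4 →L[ℝ] R4)) : Prop :=
  ∀ x v, v ≠ 0 → 0 < ω x ![v, J x v]

/-- The two-form `ω` is `J`-invariant. -/
def IsInvariant (ω : R4 → R4 [⋀^Fin 2]→L[ℝ] ℝ) (J : R4 → (R4 →L[ℝ] R4)) : Prop :=
  ∀ x u v, ω x ![J x u, J x v] = ω x ![u, v]

/-- If a smooth almost complex structure on `T^4` depending only on the coordinate `x 0` is tamed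
by some symplectic form, then it is compatible with some symplectic form. -/
theorem result (J : R4 → (R4 →L[ℝ] R4)) (hJ : IsAlmostComplex J)
    (hinv : ∀ x y : R4, x 0 = y 0 → J x = J y)
    (htamed : ∃ ω, IsClosedForm ω ∧ Tames ω J) :
    ∃ ω', IsClosedForm ω' ∧ Tames ω' J ∧ IsInvariant ω' J := by
  obtain ⟨hJs, hJper, hJ2⟩ := hJ
  obtain ⟨ω, ⟨hωs, hωper, hωcl⟩, hωtame⟩ := htamed
  obtain ⟨ω', h1, h2, h3, h4, h5⟩ :=
    Vale.Agent.P204.torus_main J hJs hJ2 hJper hinv ω hωs hωper hωcl hωtame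
  exact ⟨ω', ⟨h1, h2, h3⟩, h4, h5⟩

end Vale.Agent.Results.P204.TorusT3Invariant
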